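import Vale.Agent.Lib.P356.helper76.Supp
import Vale.Agent.Lib.P356.helper71.ProdEntry
import Vale.Agent.Lib.P356.helper68.EntropyRank
import Vale.Agent.Lib.P356.helper91.Collar
import Vale.Agent.Lib.P356.helper69.SpecPoly
import Vale.Agent.Lib.P356.helper34.AevalLemmas
import Vale.Agent.Lib.P356.helper25.RankCut

/-!
The area law for Hamiltonians with commuting local terms: assembly.
-/

namespace Vale.Agent.Lib.P356.H23

open Matrix

open Vale.Agent.Lib.P356

open Vale.Agent.Lib.P356.H76 Vale.Agent.Lib.P356.H71 Vale.Agent.Lib.P356.H68 Vale.Agent.Lib.P356.H91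
  Vale.Agent.Lib.P356.H69 Vale.Agent.Lib.P356.H34 Vale.Agent.Lib.P356.H25

/-- A product of commuting idempotents absorbs each of its factors. -/
theorem list_absorb {M : Type*} [Monoid M] {ι : Type*} (P : ι → M)
    (hcomm : ∀ i j, P i * P j = P j * P i) (hidem : ∀ i, P i * P i = P i) :
    ∀ (l : List ι) (i : ι), i ∈ l → P i * (l.map P).prod = (l.map P).prod := by
  intro l
  induction l with
  | nil =>
    intro i hi
    exact absurd hi List.not_mem_nil
  | cons j l ih =>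
    intro i hi
    rw [List.map_cons, List.prod_cons]
    rcases List.mem_cons.mp hi with h | h
    · subst h
      rw [← mul_assoc, hidem]
    · rw [← mul_assoc, hcomm i j, mul_assoc, ih i h]

/-- A vector fixed by every factor is fixed by the product. -/
theorem list_fix {n : Type*} [Fintype n] [DecidableEq n] {ι : Type*} (P : ι → Matrix n n ℂ)
    (Ω : n → ℂ) (hfix : ∀ i, P i *ᵥ Ω = Ω) : ∀ l : List ι, (l.map P).prod *ᵥ Ω = Ω := by
  intro l
  induction l with
  | nil => rw [List.map_nil, List.prod_nil, Matrix.one_mulVec]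
  | cons j l ih => rw [List.map_cons, List.prod_cons, ← Matrix.mulVec_mulVec, ih, hfix]

/-- An operator with one-dimensional range fixing a nonzero vector maps some basis vector to a
nonzero multiple of that vector. -/
theorem exists_single {n : Type*} [Fintype n] [DecidableEq n] (Pm : Matrix n n ℂ) (Ω : n → ℂ)
    (hΩ : Ω ≠ 0) (hfix : Pm *ᵥ Ω = Ω) (hrange : ∀ ψ : n → ℂ, ∃ c : ℂ, Pm *ᵥ ψ = c • Ω) :
    ∃ σ : n, ∃ c : ℂ, c ≠ 0 ∧ Pm *ᵥ (Pi.single σ 1) = c • Ω := by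
  by_contra hcon
  have hzero : Pm = 0 := by
    ext i σ
    obtain ⟨c, hc⟩ := hrange (Pi.single σ 1)
    have hc0 : c = 0 := by
      by_contra h
      exact hcon ⟨σ, c, h, hc⟩
    have h2 := congrFun hc i
    rw [hc0, zero_smul, Matrix.mulVec_single_one] at h2
    exact h2
  rw [hzero, Matrix.zero_mulVec] at hfix
  exact hΩ hfix.symm

section General

variable {Λ : Type*} [Fintype Λ] [DecidableEq Λ] {q : ℕ}

theorem supp_list_prod {ι : Type*} (Y : Finset Λ) (P : ι → Matrix (Conf Λ q) (Conf Λ q) ℂ) :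
    ∀ l : List ι, (∀ i ∈ l, SupportedOn Y (P i)) → SupportedOn Y (l.map P).prod := by
  intro l
  induction l with
  | nil =>
    intro _
    rw [List.map_nil, List.prod_nil]
    exact supp_one Y
  | cons j l ih =>
    intro h
    rw [List.map_cons, List.prod_cons]
    exact supp_mul (h j List.mem_cons_self) (ih (fun i hi => h i (List.mem_cons_of_mem _ hi)))

/-- The core: commuting idempotents acting on the sets `X i` whose common fixed vectors are
the multiples of `Ω`; then the cut rank of `Ω` is at most `q ^ (2 |collar|)`. -/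
theorem core_rank [NeZero q] {ι : Type*} [Fintype ι] (X : ι → Finset Λ)
    (P : ι → Matrix (Conf Λ q) (Conf Λ q) ℂ)
    (hsupp : ∀ i, SupportedOn (X i) (P i)) (hcomm : ∀ i j, P i * P j = P j * P i)
    (hidem : ∀ i, P i * P i = P i)
    (Ω : Conf Λ q → ℂ) (hΩ : Ω ≠ 0) (hfix : ∀ i, P i *ᵥ Ω = Ω)
    (huniq : ∀ ψ : Conf Λ q → ℂ, (∀ i, P i *ᵥ ψ = ψ) → ∃ c : ℂ, ψ = c • Ω) (A : Finset Λ) :
    (cutMatrix A Ω).rank ≤ q ^ (2 * (collar X A).card) := by
  classical
  let cross : ι → Prop := fun i => (∃ x, x ∈ X i ∧ x ∈ A) ∧ (∃ y, y ∈ X i ∧ y ∉ A)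
  let inA : ι → Prop := fun i => X i ⊆ A
  let lK : List ι := (Finset.univ.filter cross).toList
  let lA : List ι := (Finset.univ.filter inA).toList
  let lB : List ι := (Finset.univ.filter (fun i => ¬ cross i ∧ ¬ inA i)).toList
  have hmemK : ∀ i, i ∈ lK ↔ cross i := by
    intro i
    rw [Finset.mem_toList, Finset.mem_filter]
    exact ⟨fun hh => hh.2, fun hh => ⟨Finset.mem_univ _, hh⟩⟩
  have hmemA : ∀ i, i ∈ lA ↔ inA i := by
    intro i
    rw [Finset.mem_toList, Finset.mem_filter]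
    exact ⟨fun hh => hh.2, fun hh => ⟨Finset.mem_univ _, hh⟩⟩
  have hmemB : ∀ i, i ∈ lB ↔ (¬ cross i ∧ ¬ inA i) := by
    intro i
    rw [Finset.mem_toList, Finset.mem_filter]
    exact ⟨fun hh => hh.2, fun hh => ⟨Finset.mem_univ _, hh⟩⟩
  have hmem : ∀ i, i ∈ lK ++ lA ++ lB := by
    intro i
    rw [List.mem_append, List.mem_append, hmemK, hmemA, hmemB]
    by_cases hc : cross i
    · exact Or.inl (Or.inl hc)
    · by_cases ha : inA i
      · exact Or.inl (Or.inr ha)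
      · exact Or.inr ⟨hc, ha⟩
  obtain ⟨PK, hPK⟩ : ∃ PK, PK = (lK.map P).prod := ⟨_, rfl⟩
  obtain ⟨PA, hPA⟩ : ∃ PA, PA = (lA.map P).prod := ⟨_, rfl⟩
  obtain ⟨PB, hPB⟩ : ∃ PB, PB = (lB.map P).prod := ⟨_, rfl⟩
  obtain ⟨Pm, hPm⟩ : ∃ Pm, Pm = PK * PA * PB := ⟨_, rfl⟩
  have hPi : ((lK ++ lA ++ lB).map P).prod = Pm := by
    rw [List.map_append, List.map_append, List.prod_append, List.prod_append, hPm, hPK, hPA, hPB]
  have habs : ∀ i, P i * Pm = Pm := by
    intro i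
    rw [← hPi]
    exact list_absorb P hcomm hidem _ i (hmem i)
  have hPmΩ : Pm *ᵥ Ω = Ω := by
    rw [← hPi]
    exact list_fix P Ω hfix _
  have hrange : ∀ ψ : Conf Λ q → ℂ, ∃ c : ℂ, Pm *ᵥ ψ = c • Ω := by
    intro ψ
    apply huniq
    intro i
    rw [Matrix.mulVec_mulVec, habs]
  obtain ⟨σ, c, hc, hσ⟩ := exists_single Pm Ω hΩ hPmΩ hrange
  have hKs : SupportedOn (collar X A ∪ Aᶜ) PK := by
    rw [hPK]
    apply supp_list_prod
    intro i hi
    have hi' : cross i := (hmemK i).mp hi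
    refine supp_mono ?_ (hsupp i)
    intro x hx
    by_cases hxA : x ∈ A
    · apply Finset.mem_union_left
      rw [mem_collar]
      exact ⟨hxA, i, hx, hi'.2⟩
    · exact Finset.mem_union_right _ (Finset.mem_compl.mpr hxA)
  have hAs : SupportedOn A PA := by
    rw [hPA]
    apply supp_list_prod
    intro i hi
    exact supp_mono ((hmemA i).mp hi) (hsupp i)
  have hBs : SupportedOn Aᶜ PB := by
    rw [hPB]
    apply supp_list_prod
    intro i hi
    have hi' : ¬ cross i ∧ ¬ inA i := (hmemB i).mp hi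
    refine supp_mono ?_ (hsupp i)
    intro x hx
    rw [Finset.mem_compl]
    intro hxA
    apply hi'.1
    refine ⟨⟨x, hx, hxA⟩, ?_⟩
    by_contra hno
    apply hi'.2
    intro y hy
    by_contra hyA
    exact hno ⟨y, hy, hyA⟩
  obtain ⟨f, g, hfg⟩ := prod_entry A PA PB hAs hBs σ
  obtain ⟨φ, hφdef⟩ : ∃ φ : Conf Λ q → ℂ, φ = fun τ => c⁻¹ * (PA * PB) τ σ := ⟨_, rfl⟩
  have hφ : ∀ τ, φ τ = (fun a => c⁻¹ * f a) (fun x => τ x.1) * g (fun x => τ x.1) := by
    intro τ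
    rw [hφdef]
    show c⁻¹ * (PA * PB) τ σ = c⁻¹ * f _ * g _
    rw [hfg τ, mul_assoc]
  have hΩeq : Ω = PK *ᵥ φ := by
    have h1 : φ = c⁻¹ • ((PA * PB) *ᵥ Pi.single σ 1) := by
      rw [hφdef, Matrix.mulVec_single_one]
      rfl
    rw [h1, Matrix.mulVec_smul, Matrix.mulVec_mulVec, ← mul_assoc, ← hPm, hσ, smul_smul,
      inv_mul_cancel₀ hc, one_smul]
  rw [hΩeq]
  exact rank_cut_le A (collar X A) (fun x hx => ((mem_collar X A x).mp hx).1) PK hKs (fun a => c⁻¹ * f a) g φ hφ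

/-- Commuting Hermitian local terms and a simple eigenvalue of their sum: the cut rank of the
eigenvector is at most `q ^ (2 |collar|)`. -/
theorem ham_rank [NeZero q] {ι : Type*} [Fintype ι] (X : ι → Finset Λ)
    (h : ι → Matrix (Conf Λ q) (Conf Λ q) ℂ)
    (hherm : ∀ i, (h i).IsHermitian) (hsupp : ∀ i, SupportedOn (X i) (h i))
    (hcomm : ∀ i j, h i * h j = h j * h i)
    (E : ℂ) (Ω : Conf Λ q → ℂ) (hΩ0 : Ω ≠ 0)
    (hΩ : (∑ i, h i) *ᵥ Ω = E • Ω)
    (hsimple : ∀ ψ : Conf Λ q → ℂ, (∑ i, h i) *ᵥ ψ = E • ψ → ∃ c : ℂ, ψ = c • Ω)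
    (A : Finset Λ) :
    (cutMatrix A Ω).rank ≤ q ^ (2 * (collar X A).card) := by
  classical
  have hev : ∀ i, ∃ c : ℂ, h i *ᵥ Ω = c • Ω := by
    intro i
    apply hsimple
    have hc : (∑ j, h j) * h i = h i * ∑ j, h j := by
      rw [Finset.sum_mul, Finset.mul_sum]
      exact Finset.sum_congr rfl (fun j _ => hcomm j i)
    rw [Matrix.mulVec_mulVec, hc, ← Matrix.mulVec_mulVec, hΩ, Matrix.mulVec_smul]
  choose lam hlam using hev
  have hsum : ∀ ψ : Conf Λ q → ℂ, (∑ i, h i) *ᵥ ψ = ∑ i, h i *ᵥ ψ := by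
    intro ψ
    funext τ
    simp only [Matrix.mulVec, dotProduct, Matrix.sum_apply, Finset.sum_apply, Finset.sum_mul]
    exact Finset.sum_comm
  have hE : E = ∑ i, lam i := by
    have h1 : (∑ i, h i) *ᵥ Ω = (∑ i, lam i) • Ω := by
      rw [hsum, Finset.sum_smul]
      exact Finset.sum_congr rfl (fun i _ => hlam i)
    rw [hΩ] at h1
    obtain ⟨τ, hτ⟩ : ∃ τ, Ω τ ≠ 0 := by
      by_contra hno
      apply hΩ0
      funext τ
      by_contra hτ
      exact hno ⟨τ, hτ⟩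
    have h2 := congrFun h1 τ
    simp only [Pi.smul_apply, smul_eq_mul] at h2
    exact mul_right_cancel₀ hτ h2
  have hpoly : ∀ i, ∃ p : Polynomial ℂ, p.eval (lam i) = 1 ∧
      h i * Polynomial.aeval (h i) p = lam i • Polynomial.aeval (h i) p :=
    fun i => exists_spectral_poly (h i) (hherm i) (lam i)
  choose p hp1 hp2 using hpoly
  obtain ⟨P, hP⟩ : ∃ P : ι → Matrix (Conf Λ q) (Conf Λ q) ℂ,
      P = fun i => Polynomial.aeval (h i) (p i) := ⟨_, rfl⟩
  have hPi : ∀ i, P i = Polynomial.aeval (h i) (p i) := fun i => by rw [hP]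
  have hhP : ∀ i, h i * P i = lam i • P i := by
    intro i
    rw [hPi]
    exact hp2 i
  refine core_rank X P ?_ ?_ ?_ Ω hΩ0 ?_ ?_ A
  · intro i
    rw [hPi]
    exact supp_aeval (hsupp i) (p i)
  · intro i j
    rw [hPi, hPi]
    exact aeval_comm (h i) (h j) (hcomm i j) (p i) (p j)
  · intro i
    have h1 := aeval_mul_of_mul_eq (h i) (P i) (lam i) (hhP i) (p i)
    rw [hp1, one_smul, ← hPi] at h1
    exact h1
  · intro i
    have h1 := aeval_mulVec_of_mulVec_eq (h i) Ω (lam i) (hlam i) (p i)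
    rw [hp1, one_smul, ← hPi] at h1
    exact h1
  · intro ψ hψ
    apply hsimple
    have hi : ∀ i, h i *ᵥ ψ = lam i • ψ := by
      intro i
      have h1 : h i *ᵥ ψ = h i *ᵥ (P i *ᵥ ψ) := by rw [hψ i]
      rw [h1, Matrix.mulVec_mulVec, hhP i, Matrix.smul_mulVec, hψ i]
    rw [hsum, hE, Finset.sum_smul]
    exact Finset.sum_congr rfl (fun i _ => hi i)

end General

/-- The arithmetic of the last step. -/
theorem arith_step (q R r c b : ℕ) (S : ℝ) (hq : 0 < q) (h1 : S ≤ Real.log (r : ℝ))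
    (h2 : r ≤ q ^ (2 * c)) (h3 : c ≤ (2 * R + 1) ^ 2 * b) :
    r ≤ q ^ (2 * (2 * R + 1) ^ 2 * b) ∧
      S ≤ 2 * (2 * (R : ℝ) + 1) ^ 2 * Real.log q * (b : ℝ) := by
  have hlogq : 0 ≤ Real.log q := Real.log_natCast_nonneg q
  have h4 : Real.log (r : ℝ) ≤ 2 * (c : ℝ) * Real.log q := by
    rcases Nat.eq_zero_or_pos r with h0 | hpos
    · rw [h0, Nat.cast_zero, Real.log_zero]
      positivity
    · have h5 : (r : ℝ) ≤ (q : ℝ) ^ (2 * c) := by
        exact_mod_cast h2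
      calc Real.log (r : ℝ)
          ≤ Real.log ((q : ℝ) ^ (2 * c)) := Real.log_le_log (by exact_mod_cast hpos) h5
        _ = 2 * (c : ℝ) * Real.log q := by
            rw [Real.log_pow]
            push_cast
            ring
  have h5 : (c : ℝ) ≤ (2 * (R : ℝ) + 1) ^ 2 * (b : ℝ) := by
    exact_mod_cast h3
  constructor
  · refine h2.trans (Nat.pow_le_pow_right hq ?_)
    calc 2 * c ≤ 2 * ((2 * R + 1) ^ 2 * b) := Nat.mul_le_mul_left 2 h3
      _ = 2 * (2 * R + 1) ^ 2 * b := by ring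
  · calc S ≤ 2 * (c : ℝ) * Real.log q := h1.trans h4
      _ ≤ 2 * ((2 * (R : ℝ) + 1) ^ 2 * (b : ℝ)) * Real.log q := by gcongr
      _ = 2 * (2 * (R : ℝ) + 1) ^ 2 * Real.log q * (b : ℝ) := by ring

/-- The area law for commuting local terms on the square grid: the cut rank and the entropy. -/
theorem area_law (L q R : ℕ) (hq : 0 < q) (ι : Type) [Fintype ι]
    (X : ι → Finset (Fin L × Fin L))
    (h : ι → Matrix (Conf (Fin L × Fin L) q) (Conf (Fin L × Fin L) q) ℂ)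
    (hdiam : ∀ i, ∀ x ∈ X i, ∀ y ∈ X i, l1dist x y ≤ R)
    (hherm : ∀ i, (h i).IsHermitian)
    (hsupp : ∀ i, SupportedOn (X i) (h i))
    (hcomm : ∀ i j, h i * h j = h j * h i)
    (E : ℂ) (Ω : Conf (Fin L × Fin L) q → ℂ)
    (hnorm : ∑ σ, ‖Ω σ‖ ^ 2 = 1)
    (hΩ : (∑ i, h i) *ᵥ Ω = E • Ω)
    (hsimple : ∀ ψ : Conf (Fin L × Fin L) q → ℂ,
      (∑ i, h i) *ᵥ ψ = E • ψ → ∃ c : ℂ, ψ = c • Ω)
    (A : Finset (Fin L × Fin L)) :
    (cutMatrix A Ω).rank ≤ q ^ (2 * (2 * R + 1) ^ 2 * (bdry A).card) ∧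
    entropy A Ω ≤ 2 * (2 * (R : ℝ) + 1) ^ 2 * Real.log q * ((bdry A).card : ℝ) := by
  have hne : NeZero q := ⟨Nat.pos_iff_ne_zero.mp hq⟩
  have hΩ0 : Ω ≠ 0 := by
    intro h0
    rw [h0] at hnorm
    simp at hnorm
  exact arith_step q R (cutMatrix A Ω).rank (collar X A).card (bdry A).card (entropy A Ω) hq
    (entropy_le_log_rank A Ω hnorm)
    (ham_rank X h hherm hsupp hcomm E Ω hΩ0 hΩ hsimple A)
    (collar_card_le L R X hdiam A)

end Vale.Agent.Lib.P356.H23
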