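import Mathlib

/-!
Quantum spin systems on a finite set of sites, in coordinates: vectors are complex functions
of configurations, operators are matrices indexed by configurations.  Definitions for the
area law for Hamiltonians with commuting local terms.
-/

namespace Vale.Agent.Lib.P356

open Matrix

/-- Configurations of a system with one `q`-level site for each point of `Λ`: the standard
basis of the tensor product of copies of `ℂ^q` indexed by `Λ`. -/
abbrev Conf (Λ : Type*) (q : ℕ) := Λ → Fin q

section General

variable {Λ : Type*} [Fintype Λ] [DecidableEq Λ] {q : ℕ}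

/-- The operator `T` (a matrix indexed by configurations) acts on the tensor factors in `X`
and as the identity elsewhere: the entry `T σ τ` vanishes unless `σ` and `τ` agree off `X`, and
for `σ`, `τ` agreeing off `X` it depends only on the restrictions of `σ` and `τ` to `X`. -/
def SupportedOn (X : Finset Λ) (T : Matrix (Conf Λ q) (Conf Λ q) ℂ) : Prop :=
  (∀ σ τ : Conf Λ q, T σ τ ≠ 0 → ∀ x, x ∉ X → σ x = τ x) ∧
  (∀ σ τ σ' τ' : Conf Λ q, (∀ x, x ∈ X → σ x = σ' x) → (∀ x, x ∈ X → τ x = τ' x) →
    (∀ x, x ∉ X → σ x = τ x) → (∀ x, x ∉ X → σ' x = τ' x) → T σ τ = T σ' τ')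

/-- The configuration that equals `a` on `A` and `b` off `A`. -/
def glue (A : Finset Λ) (a : {x // x ∈ A} → Fin q) (b : {x // x ∉ A} → Fin q) : Conf Λ q :=
  fun x => if h : x ∈ A then a ⟨x, h⟩ else b ⟨x, h⟩

/-- The coefficient matrix of the vector `Ω` across the cut between `A` and its complement:
rows are configurations on `A`, columns are configurations off `A`. -/
def cutMatrix (A : Finset Λ) (Ω : Conf Λ q → ℂ) :
    Matrix ({x // x ∈ A} → Fin q) ({x // x ∉ A} → Fin q) ℂ :=
  Matrix.of fun a b => Ω (glue A a b)

/-- The reduced density matrix on `A` of the pure state `Ω` (the trace over the tensor factors at the sites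
off `A` of the projector on `Ω`): its `(a, a')` entry is the sum over the configurations `b`
off `A` of `Ω (a, b) * conj (Ω (a', b))`. -/
def reduced (A : Finset Λ) (Ω : Conf Λ q → ℂ) :
    Matrix ({x // x ∈ A} → Fin q) ({x // x ∈ A} → Fin q) ℂ :=
  cutMatrix A Ω * (cutMatrix A Ω)ᴴ

theorem reduced_isHermitian (A : Finset Λ) (Ω : Conf Λ q → ℂ) : (reduced A Ω).IsHermitian :=
  Matrix.isHermitian_mul_conjTranspose_self _

/-- The entanglement entropy of `Ω` across the cut: the von Neumann entropy of the reduced
density matrix on `A`, that is the sum of `- λ log λ` (natural logarithm, `0 log 0 = 0`) over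
its eigenvalues `λ` counted with multiplicity. -/
noncomputable def entropy (A : Finset Λ) (Ω : Conf Λ q → ℂ) : ℝ :=
  ∑ i, Real.negMulLog ((reduced_isHermitian A Ω).eigenvalues i)

end General

section Collar

variable {Λ : Type*}

open Classical in
/-- The sites of `A` that lie in a set `X i` which also contains a site off `A`. -/
noncomputable def collar {ι : Type*} (X : ι → Finset Λ) (A : Finset Λ) : Finset Λ :=
  A.filter (fun x => ∃ i, x ∈ X i ∧ ∃ y, y ∈ X i ∧ y ∉ A)

theorem mem_collar {ι : Type*} (X : ι → Finset Λ) (A : Finset Λ) (x : Λ) :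
    x ∈ collar X A ↔ x ∈ A ∧ ∃ i, x ∈ X i ∧ ∃ y, y ∈ X i ∧ y ∉ A := by
  classical
  unfold collar
  exact Finset.mem_filter

end Collar

section Grid

/-- The `ℓ¹` distance on the square grid. -/
def l1dist {L : ℕ} (x y : Fin L × Fin L) : ℕ :=
  Nat.dist x.1.val y.1.val + Nat.dist x.2.val y.2.val

/-- The edge boundary of `A` in the square grid: the pairs `(x, y)` with `x` in `A`, `y` not in
`A` and `ℓ¹` distance one (one pair for each edge between `A` and its complement). -/
def bdry {L : ℕ} (A : Finset (Fin L × Fin L)) : Finset ((Fin L × Fin L) × (Fin L × Fin L)) :=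
  (A ×ˢ Aᶜ).filter (fun p => l1dist p.1 p.2 = 1)

theorem mem_bdry {L : ℕ} (A : Finset (Fin L × Fin L)) (p : (Fin L × Fin L) × (Fin L × Fin L)) :
    p ∈ bdry A ↔ p.1 ∈ A ∧ p.2 ∉ A ∧ l1dist p.1 p.2 = 1 := by
  unfold bdry
  rw [Finset.mem_filter, Finset.mem_product, Finset.mem_compl, and_assoc]

end Grid

end Vale.Agent.Lib.P356
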